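import Vale.Agent.P022D.W.Typ
import Vale.Agent.P022E.W.Core
import Vale.Agent.P022E.Gma.Rep

namespace Vale.Agent.P022E.W
export Vale.Agent.P022D.W (
  dtm_cj cjH d_map dtm rt_eq rt_ex trc_cj res_g0 trc exists_mon d1 d2 rt odd_root)
end Vale.Agent.P022E.W

namespace Vale.Agent.P022E.W.Mon
export Vale.Agent.P022D.W.Mon (
  sq pow d conj mul)
end Vale.Agent.P022E.W.Mon

namespace Vale.Agent.P022E.W.Lift
export Vale.Agent.P022D.W.Lift (
  cj)
end Vale.Agent.P022E.W.Lift
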