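import Vale.Agent.P022D.W.Pair
import Vale.Agent.P022E.W.Typ

namespace Vale.Agent.P022E.W.Two
export Vale.Agent.P022D.W.Two (
  ty onN T all NH rel T1 l1 W m1 gen_in rigid yy eq_of gen_out l2 A mk unit m2)
end Vale.Agent.P022E.W.Two

namespace Vale.Agent.P022E.W
export Vale.Agent.P022D.W (
  TY trc_map dtm_map dd_nat dd yy cp Pr dd_map cg two_pow_of Two cq)
end Vale.Agent.P022E.W

namespace Vale.Agent.P022E.W.Pr
export Vale.Agent.P022D.W.Pr (
  tr_det two l2 A mk tan T ram l1 W unr)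
end Vale.Agent.P022E.W.Pr

namespace Vale.Agent.P022E.W.Mon
export Vale.Agent.P022D.W.Mon (
  dd)
end Vale.Agent.P022E.W.Mon
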