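import Vale.Agent.P022D.W.Odd
import Vale.Agent.P022E.W.Pair

namespace Vale.Agent.P022E.W
export Vale.Agent.P022D.W (
  odd_order mem_kr isClosed_dec exists_proOdd Tm exists_teich kr_open dd_lin exists_g1
  pow_mem_open kr ProOdd)
end Vale.Agent.P022E.W

namespace Vale.Agent.P022E.W.ProOdd
export Vale.Agent.P022D.W.ProOdd (
  pow)
end Vale.Agent.P022E.W.ProOdd

namespace Vale.Agent.P022E.W.Pr
export Vale.Agent.P022D.W.Pr (
  ty_iff)
end Vale.Agent.P022E.W.Pr

namespace Vale.Agent.P022E.W.Mon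
export Vale.Agent.P022D.W.Mon (
  eig)
end Vale.Agent.P022E.W.Mon
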