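import Vale.Agent.P022D.W.Step

namespace Vale.Agent.P022E.W.Step
export Vale.Agent.P022D.W.Step (
  Cs root cut_nm ann_w odd_pow prim ann_prod gs_ann sub_one_norm sub_one_pow drops nm_prim
  gs cut_eq mem_kl1 rep_inert mem_kl gs_red Dat pow_congr rep_split kl multi kl_le fit Dv
  cut_dv eq_of_two cs1)
end Vale.Agent.P022E.W.Step

namespace Vale.Agent.P022E.W.Step.Dat
export Vale.Agent.P022D.W.Step.Dat (
  rep mk nil one mono ann com stab)
end Vale.Agent.P022E.W.Step.Dat

namespace Vale.Agent.P022E.W.Step.Cs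
export Vale.Agent.P022D.W.Step.Cs (
  drop congr)
end Vale.Agent.P022E.W.Step.Cs
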