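import Vale.Agent.P022E.W.Mod
import Vale.Agent.P022E.Loc.Expl

/-!
# P022E, block W: the local relations at the odd primes, for rings and for modules
-/

set_option linter.all false

noncomputable section

namespace Vale.Agent.P022E.Loc

open NumberField IsLocalRing
open Vale.Agent.P022 Vale.Agent.P022.H443 Vale.Agent.P022D Vale.Agent.P022D.R Vale.Agent.P022D.W
open Vale.Agent.P027M.S (mx)
open Vale.Agent.P022D.Sel (M2 IsDec)
open Vale.Agent.P022E.Sel (Dh)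

variable {O F : Type} [CommRing O] [Field F] {S : Dat O F} {L : Pl O} {l : ℕ}
  {A : Type} [CommRing A] {ι : O →+* A} {π : A →+* F} {ρ : GQ →* M2 A}

theorem exists_dinv (r : GQ →* M2 O) (g : GQ) : ∃ x : O, x * (r g).det = 1 :=
  ⟨(r g⁻¹).det, by rw [← Matrix.det_mul, ← map_mul, inv_mul_cancel, map_one, Matrix.det_one]⟩

/-- the normalised determinant of `τ` has order dividing the `2`-part of `l - 1` -/
theorem Tst.dl [IsLocalRing O] [CharP F 2] (hL : L.Ok S) (hl : l ∈ L.W ∪ L.C) (h : Tst S ι π ρ)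
    {a m : ℕ} (hm : Odd m) (ha : l = 2 ^ a * m + 1) {x : O} (hx : x * (L.r (L.τ l)).det = 1) :
    ((ρ (L.τ l)).det * ι x) ^ 2 ^ a = 1 := by
  have h' := tst_pt hL h.lr h.alg
  have ho : IsOpen {g | (ρ.prod (rA L ι)) g = 1} := by
    convert h.opn.inter h'.opn using 1
    exact Set.ext fun g => Prod.ext_iff
  obtain ⟨N, hT⟩ := (hL.tm l hl).tame _ _ ho
  obtain ⟨p, hp, e⟩ := hT.rel _ hT.tau
  obtain ⟨n, hn, e'⟩ := hT.odd p hp
  have pd : ∀ {σ : GQ →* M2 A}, (∀ g, (σ g).map π = mx S.rb g) → ∀ g, π (σ g).det = 1 :=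
    fun hσ g => by rw [RingHom.map_det, RingHom.mapMatrix_apply, hσ, hL.det]
  have key : ∀ {σ : GQ →* M2 A}, (∀ g, (σ g).map π = mx S.rb g) → σ p ^ n = 1 →
      (σ (L.τ l)).det ^ l = (σ (L.τ l)).det := by
    intro σ hσ hp
    have e1 : (σ p).det = 1 := odd_root h.lr CharTwo.two_eq_zero hn
      (by rw [← Matrix.det_pow, hp, Matrix.det_one, one_pow]) (by rw [pd hσ, map_one]) (by simp)
    have e2 := congrArg (fun g => (σ g).det) e
    have e3 : (σ (L.φ l)).det * (σ (L.φ l)⁻¹).det = 1 := by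
      rw [← Matrix.det_mul, ← map_mul, mul_inv_cancel, map_one, Matrix.det_one]
    simp only [map_mul, map_pow, Matrix.det_mul, Matrix.det_pow, e1, one_mul] at e2
    rw [← e2, mul_right_comm, e3, one_mul]
  have k1 := key h.res (congrArg Prod.fst e')
  have k2 := key h'.res (congrArg Prod.snd e')
  have hx' : ι x * (rA L ι (L.τ l)).det = 1 := by
    rw [show (rA L ι (L.τ l)).det = _ from rA_dt _, ← map_mul, hx, map_one]
  refine two_pow_of h.lr CharTwo.two_eq_zero ?_ hm ?_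
  · have := congrArg π hx'
    rw [map_mul, pd h'.res, mul_one, map_one] at this
    rw [map_mul, pd h.res, this, one_mul]
  · rw [← ha, mul_pow, k1]
    congr 1
    have hu := IsUnit.of_mul_eq_one_right _ hx'
    apply hu.mul_right_cancel
    rw [hx', ← k2, ← mul_pow, hx', one_pow]

/-- the relations at a regular prime for a trace function `t` and a determinant `d`;
`E` is the equality (of ring elements, or of their actions on a vector) -/
structure WRel (L : Pl O) (l a b : ℕ) (x : O) (c z : Fin 4 → O) {B : Type*} [CommRing B]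
    (ι : O →+* B) (t d : GQ → B) (E : B → B → Prop) (e1 e2 dl : B) : Prop where
  e1_def : e1 = ι (c 0) * t (L.τ l * L.g0 l) + ι (c 1) * t (L.τ l)
  e2_def : e2 = ι (c 2) * t (L.τ l * L.g0 l) + ι (c 3) * t (L.τ l)
  dl_def : dl = d (L.τ l) * ι x
  tg : E (t (L.g0 l)) (ι (L.r (L.g0 l)).trace)
  dg : E (d (L.g0 l)) (ι (L.r (L.g0 l)).det)
  dl_pow : E (dl ^ 2 ^ a) 1
  tr : L.τ l ∈ L.Hl l → t (L.τ l) = ι (z 0) * e1 + ι (z 1) * e2 ∧
    t (L.τ l * L.g0 l) = ι (z 2) * e1 + ι (z 3) * e2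
  split : L.τ l ∈ L.Hl l → L.φ l ∈ L.Hl l → E (e1 ^ 2 ^ a) 1 ∧ E (e2 ^ 2 ^ a) 1 ∧ E dl (e1 * e2)
  inert : L.τ l ∈ L.Hl l → L.φ l ∉ L.Hl l →
    E (e1 ^ 2 ^ (a + b)) 1 ∧ E e2 (e1 ^ l) ∧ E dl (e1 ^ (l + 1))
  ram : L.τ l ∉ L.Hl l → E (t (L.τ l)) (ι (L.r (L.τ l)).trace) ∧
    E (t (L.τ l * L.g0 l)) (ι (L.r (L.τ l * L.g0 l)).trace)

/-- the coefficients of the type elements -/
def cW (e : Fin 2 → O) (u : O) (v : Fin 2 → O) : Fin 4 → O :=
  ![v 0 * u, -(v 0 * u * e 1), -(v 1 * u), v 1 * u * e 0]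

/-- the coefficients of the traces -/
def zW (L : Pl O) (l : ℕ) (e : Fin 2 → O) (u : O) : Fin 4 → O :=
  let χ := th (RingHom.id O) (fun g => (L.r g).trace) (L.g0 l) (L.τ l) e u
  ![χ 0, χ 1, e 0 * χ 0, e 1 * χ 1]

variable {e v : Fin 2 → O} {u : O}

theorem Wc.z_sum (hc : Wc S L l e u v) :
    zW L l e u 0 + zW L l e u 1 = (L.r (L.τ l)).trace ∧
      zW L l e u 2 + zW L l e u 3 = (L.r (L.τ l * L.g0 l)).trace := by
  obtain ⟨b1, b2⟩ := th_sum (RingHom.id O) (fun g => (L.r g).trace) (L.g0 l) (L.τ l) hc.inv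
  exact ⟨b1.symm, b2.symm⟩

theorem yW_c {B : Type*} [CommRing B] (ι : O →+* B) (t : GQ → B) :
    yW L l e u v ι t 0 = ι (cW e u v 0) * t (L.τ l * L.g0 l) + ι (cW e u v 1) * t (L.τ l) ∧
    yW L l e u v ι t 1 = ι (cW e u v 2) * t (L.τ l * L.g0 l) + ι (cW e u v 3) * t (L.τ l) := by
  constructor <;> simp [yW, th, cW] <;> ring

theorem Wc.t_eq (hc : Wc S L l e u v) (hτ : L.τ l ∈ L.Hl l) {B : Type*} [CommRing B] (ι : O →+* B)
    (t : GQ → B) :
    t (L.τ l) = ι (zW L l e u 0) * yW L l e u v ι t 0 + ι (zW L l e u 1) * yW L l e u v ι t 1 ∧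
    t (L.τ l * L.g0 l) =
      ι (zW L l e u 2) * yW L l e u v ι t 0 + ι (zW L l e u 3) * yW L l e u v ι t 1 := by
  obtain ⟨a1, a2⟩ := th_sum ι t (L.g0 l) (L.τ l) hc.inv
  have c0 := congrArg ι (hc.chi hτ 0)
  have c1 := congrArg ι (hc.chi hτ 1)
  rw [map_mul, map_one] at c0 c1
  simp only [zW, yW, Matrix.cons_val_zero, Matrix.cons_val_one, Matrix.cons_val, map_mul]
  constructor
  · linear_combination (a1 - th ι t (L.g0 l) (L.τ l) e u 0 * c0 -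
      th ι t (L.g0 l) (L.τ l) e u 1 * c1)
  · linear_combination (a2 - ι (e 0) * th ι t (L.g0 l) (L.τ l) e u 0 * c0 -
      ι (e 1) * th ι t (L.g0 l) (L.τ l) e u 1 * c1)

theorem sq_two {a b m w : ℕ} (ha : l = 2 ^ a * m + 1) (hb : l + 1 = 2 ^ b * w) :
    l ^ 2 = 2 ^ (a + b) * (m * w) + 1 := by
  calc l ^ 2 = (2 ^ a * m) * (l + 1) + 1 := by rw [ha]; ring
    _ = _ := by rw [hb]; ring

/-- **WLOC**, ring level -/
theorem Wc.wloc [IsLocalRing O] [CharP F 2] (hc : Wc S L l e u v) (hL : L.Ok S) (hl : l ∈ L.W)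
    {a b m w : ℕ} (hm : Odd m) (hw : Odd w) (ha : l = 2 ^ a * m + 1) (hb : l + 1 = 2 ^ b * w)
    {x : O} (hx : x * (L.r (L.τ l)).det = 1) (h : Tst S ι π ρ) :
    WRel L l a b x (cW e u v) (zW L l e u) ι (fun g => (ρ g).trace) (fun g => (ρ g).det) Eq
      (yW L l e u v ι (fun g => (ρ g).trace) 0) (yW L l e u v ι (fun g => (ρ g).trace) 1)
      ((ρ (L.τ l)).det * ι x) := by
  obtain ⟨⟨a1, a2⟩, a3, a4⟩ := hc.ring hL hl h
  have hx' := congrArg ι hx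
  rw [map_mul, map_one] at hx'
  have d : L.τ l ∈ L.Hl l → (ρ (L.τ l)).det * ι x = yW L l e u v ι (fun g => (ρ g).trace) 0 *
      yW L l e u v ι (fun g => (ρ g).trace) 1 := fun hτ => by
    rw [(a4 hτ _ rfl).2.1, mul_assoc, mul_comm _ (ι x), hx', mul_one]
  refine ⟨(yW_c _ _).1, (yW_c _ _).2, rfl, a1, a2,
    h.dl hL (Finset.mem_union_left _ hl) hm ha hx,
    fun hτ => hc.t_eq hτ ι (fun g => (ρ g).trace),
    fun hτ hφ => ?_, fun hτ hφ => ?_, a3⟩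
  · have := (a4 hτ _ rfl).2.2.1 hφ a m hm ha
    exact ⟨this 0, this 1, d hτ⟩
  · obtain ⟨b1, b2⟩ := (a4 hτ _ rfl).2.2.2 hφ
    exact ⟨b2 _ _ (hm.mul hw) (sq_two ha hb), b1, by rw [d hτ, b1, pow_succ']⟩

open As in
/-- **WLOC** modulo a good ideal of the ring of symbols -/
theorem Wc.wlocI [IsLocalRing O] [CharP F 2] (hc : Wc S L l e u v) (hL : L.Ok S) (hl : l ∈ L.W)
    {a b m w : ℕ} (hm : Odd m) (hw : Odd w) (ha : l = 2 ^ a * m + 1) (hb : l + 1 = 2 ^ b * w)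
    {x : O} (hx : x * (L.r (L.τ l)).det = 1) {I : Ideal (Tg O)} (h : Gp0 L.r I) :
    WRel L l a b x (cW e u v) (zW L l e u) MvPolynomial.C tt As.dd (fun p q => p - q ∈ I)
      (yT L l e u v 0) (yT L l e u v 1) (As.dd (L.τ l) * cc x) := by
  by_cases hI : I = ⊤
  · subst hI
    exact ⟨(yW_c _ _).1, (yW_c _ _).2, rfl, trivial, trivial, trivial, fun hτ => hc.t_eq hτ _ _,
      fun _ _ => ⟨trivial, trivial, trivial⟩, fun _ _ => ⟨trivial, trivial, trivial⟩,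
      fun _ => ⟨trivial, trivial⟩⟩
  obtain ⟨π, ρ, hT, -, ht, hd, -⟩ := h.tst hL hI
  have k := hc.wloc hL hl hm hw ha hb hx hT
  have hy : ∀ i, yW L l e u v ((Ideal.Quotient.mk I).comp MvPolynomial.C) (fun g => (ρ g).trace) i
      = Ideal.Quotient.mk I (yT L l e u v i) := fun i =>
    (yW_map (Ideal.Quotient.mk I) (fun _ => rfl) (fun g => (ht g).symm) L l e u v i).symm
  rw [hy, hy, hd] at k
  have q : ∀ {p q : Tg O}, Ideal.Quotient.mk I p = Ideal.Quotient.mk I q → p - q ∈ I :=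
    Ideal.Quotient.eq.1
  refine ⟨(yW_c _ _).1, (yW_c _ _).2, rfl, q ((ht _).symm.trans k.tg), q ((hd _).symm.trans k.dg),
    q k.dl_pow, fun hτ => hc.t_eq hτ _ _, fun h1 h2 => ?_, fun h1 h2 => ?_, fun h1 => ?_⟩
  · obtain ⟨b1, b2, b3⟩ := k.split h1 h2
    exact ⟨q b1, q b2, q b3⟩
  · obtain ⟨b1, b2, b3⟩ := k.inert h1 h2
    exact ⟨q b1, q b2, q b3⟩
  · obtain ⟨b1, b2⟩ := k.ram h1
    exact ⟨q ((ht _).symm.trans b1), q ((ht _).symm.trans b2)⟩

theorem WRel.imp {a b : ℕ} {x : O} {c z : Fin 4 → O} {B : Type*} [CommRing B] {ι : O →+* B}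
    {t d : GQ → B} {E E' : B → B → Prop} {e1 e2 dl : B} (h : WRel L l a b x c z ι t d E e1 e2 dl)
    (k : ∀ p q, E p q → E' p q) : WRel L l a b x c z ι t d E' e1 e2 dl :=
  ⟨h.e1_def, h.e2_def, h.dl_def, k _ _ h.tg, k _ _ h.dg, k _ _ h.dl_pow, h.tr,
    fun h1 h2 => (h.split h1 h2).imp (k _ _) (And.imp (k _ _) (k _ _)),
    fun h1 h2 => (h.inert h1 h2).imp (k _ _) (And.imp (k _ _) (k _ _)),
    fun h1 => (h.ram h1).imp (k _ _) (k _ _)⟩

open As in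
/-- **WLOC** on a vector of a module over the ring of symbols -/
theorem Wc.wlocM [IsLocalRing O] [CharP F 2] (hc : Wc S L l e u v) (hL : L.Ok S) (hl : l ∈ L.W)
    {a b m w : ℕ} (hm : Odd m) (hw : Odd w) (ha : l = 2 ^ a * m + 1) (hb : l + 1 = 2 ^ b * w)
    {x : O} (hx : x * (L.r (L.τ l)).det = 1) {Y : Type*} [AddCommGroup Y] [Module (Tg O) Y]
    {y : Y} (h : Gp0 L.r (Ideal.torsionOf (Tg O) Y y)) :
    WRel L l a b x (cW e u v) (zW L l e u) MvPolynomial.C tt As.dd (fun p q => p • y = q • y)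
      (yT L l e u v 0) (yT L l e u v 1) (As.dd (L.τ l) * cc x) :=
  (hc.wlocI hL hl hm hw ha hb hx h).imp fun p q k => by
    rwa [Ideal.mem_torsionOf_iff, sub_smul, sub_eq_zero] at k

open As in
/-- the determinant at any odd prime of the level, on a vector -/
theorem dlM [IsLocalRing O] [CharP F 2] (hL : L.Ok S) (hl : l ∈ L.W ∪ L.C) {a m : ℕ} (hm : Odd m)
    (ha : l = 2 ^ a * m + 1) {x : O} (hx : x * (L.r (L.τ l)).det = 1) {Y : Type*}
    [AddCommGroup Y] [Module (Tg O) Y] {y : Y} (h : Gp0 L.r (Ideal.torsionOf (Tg O) Y y)) :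
    ((As.dd (L.τ l) * cc x) ^ 2 ^ a : Tg O) • y = y := by
  by_cases hI : Ideal.torsionOf (Tg O) Y y = ⊤
  · have : (1 : Tg O) • y = 0 := (Ideal.mem_torsionOf_iff _ _).1 (hI ▸ trivial)
    rw [one_smul] at this
    rw [this, smul_zero]
  obtain ⟨π, ρ, hT, -, -, hd, -⟩ := h.tst hL hI
  have k := hT.dl hL hl hm ha hx
  rw [hd] at k
  have := Ideal.Quotient.eq.1 (show Ideal.Quotient.mk _ ((As.dd (L.τ l) * cc x) ^ 2 ^ a) =
    Ideal.Quotient.mk _ 1 from k)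
  rwa [Ideal.mem_torsionOf_iff, sub_smul, sub_eq_zero, one_smul] at this

/-- **EXPL2**: existence of the data with pro-odd regular elements -/
theorem expl2 (O F : Type) [CommRing O] [IsLocalRing O] [IsAdicComplete (maximalIdeal O) O]
    [Field F] [Finite F] [CharP F 2] (S : Dat O F) (H : Subgroup GQ) (r : GQ →* M2 O) (c : GQ)
    (Sf : Finset ℕ) (h1 : ∀ c, S.red c = 0 ↔ c ∈ maximalIdeal O) (h2 : Dh S.rb H)
    (h10 : mx S.rb S.g1 1 0 ≠ 0)
    (h3 : ∀ g, (mx S.rb g).det = 1) (h4 : S.T = insert 0 (insert 2 Sf))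
    (h5 : ∀ l ∈ Sf, l.Prime ∧ l ≠ 2) (h6 : IsConj c) (h7 : ∀ g, (r g).map S.red = mx S.rb g)
    (h8 : ∀ k : ℕ, IsOpen {g : GQ | (r g).map (Ideal.Quotient.mk (maximalIdeal O ^ k)) = 1})
    (h9 : (r c).det = -1) :
    ∃ (L : Pl O) (e : ℕ → Fin 2 → O) (u : ℕ → O) (v : ℕ → Fin 2 → O), L.Ok S ∧ L.H = H ∧
      L.r = r ∧ L.c = c ∧ L.W ∪ L.C = Sf ∧ (∀ l ∈ Sf, l ∈ L.C ↔ UniF S.rb l) ∧
      ∀ l ∈ L.W, Wc S L l (e l) (u l) (v l) := by
  obtain ⟨L, a1, a2, a3, a4, a5, a6⟩ := expl O F S H r c Sf h1 h2 h10 h3 h4 h5 h6 h7 h8 h9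
  obtain ⟨g1, a, e, u, v, b1, b2⟩ := exists_wc a1
  exact ⟨_, e, u, v, b1, a2, a3, a4, a5, a6, b2⟩

end Vale.Agent.P022E.Loc
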