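import Vale.Agent.P022E.W.Loc
import Vale.Agent.P022D.W.Grd

/-!
# P022E, block W: the cut by types and central characters for modules over the ring of symbols
-/

set_option linter.all false

noncomputable section

namespace Vale.Agent.P022E.Loc

open NumberField IsLocalRing Finset Classical
open Vale.Agent.P022 Vale.Agent.P022.H443 Vale.Agent.P022D Vale.Agent.P022D.R Vale.Agent.P022D.W
open Vale.Agent.P022D.W.Step Vale.Agent.P022E.As
open Vale.Agent.P027M.S (mx)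
open Vale.Agent.P022D.Sel (M2 IsDec)
open Vale.Agent.P022E.Sel (Dh)

variable {O F : Type} [CommRing O] [Field F]

/-- the constants of the cut -/
structure Cw (S : R.Dat O F) (L : Pl O) where
  e : ℕ → Fin 2 → O
  v : ℕ → Fin 2 → O
  u : ℕ → O
  x : ℕ → O
  a : ℕ → ℕ
  b : ℕ → ℕ
  wc : ∀ l ∈ L.W, Wc S L l (e l) (u l) (v l)
  hx : ∀ l, x l * (L.r (L.τ l)).det = 1
  ha : ∀ l ∈ L.W ∪ L.C, ∃ m, Odd m ∧ l = 2 ^ a l * m + 1
  hb : ∀ l ∈ L.W ∪ L.C, ∃ w, Odd w ∧ l + 1 = 2 ^ b l * w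

variable {S : R.Dat O F} {L : Pl O}

theorem exists_cw [IsLocalRing O] (hL : L.Ok S) {e v : ℕ → Fin 2 → O} {u : ℕ → O}
    (h : ∀ l ∈ L.W, Wc S L l (e l) (u l) (v l)) : Nonempty (Cw S L) := by
  choose x hx using fun l => exists_dinv L.r (L.τ l)
  have h1 : ∀ l ∈ L.W ∪ L.C, ∃ a m, Odd m ∧ l = 2 ^ a * m + 1 := fun l hl => by
    have := (hL.pr l hl).1.two_le
    obtain ⟨a, m, hm, e⟩ := Nat.exists_eq_two_pow_mul_odd (n := l - 1) (by omega)
    exact ⟨a, m, hm, by omega⟩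
  have h2 : ∀ l : ℕ, ∃ b w, Odd w ∧ l + 1 = 2 ^ b * w := fun l =>
    Nat.exists_eq_two_pow_mul_odd (Nat.succ_ne_zero l)
  choose! a ha using h1
  choose b hb using h2
  exact ⟨⟨e, v, u, x, a, b, h, hx, ha, fun l _ => hb l⟩⟩

/-- split regular primes -/
def Pl.Sp (L : Pl O) (l : ℕ) : Prop := l ∈ L.W ∧ L.τ l ∈ L.Hl l ∧ L.φ l ∈ L.Hl l

/-- inert regular primes -/
def Pl.In (L : Pl O) (l : ℕ) : Prop := l ∈ L.W ∧ L.τ l ∈ L.Hl l ∧ L.φ l ∉ L.Hl l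

namespace Cw

variable (c : Cw S L)

/-- the type elements -/
def y (l : ℕ) (i : Fin 2) : Tg O := yT L l (c.e l) (c.u l) (c.v l) i

/-- the normalised determinant of `τ l` -/
def dl (l : ℕ) : Tg O := As.dd (L.τ l) * cc (c.x l)

/-- the generator of the augmentation ideal of the group of scalars at `l` -/
def w (l : ℕ) : Tg O := c.dl l - 1

/-- the equations of the cut at `l` -/
def J (l : ℕ) : Set (Tg O) :=
  if L.Sp l then {c.y l 0 - 1, c.y l 1 - 1} else if L.In l then {c.y l 0 - 1} else {c.dl l - 1}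

/-- the norm element at `l` -/
def nm (l : ℕ) : Tg O :=
  if L.Sp l then (∑ i ∈ range (2 ^ c.a l), c.y l 0 ^ i) * ∑ i ∈ range (2 ^ c.a l), c.y l 1 ^ i
  else if L.In l then ∑ i ∈ range (2 ^ (c.a l + c.b l)), c.y l 0 ^ i
  else ∑ i ∈ range (2 ^ c.a l), c.dl l ^ i

/-- all the equations -/
def JJ : Set (Tg O) := ⋃ l ∈ L.W ∪ L.C, c.J l

/-- the norm element -/
def NN : Tg O := ∏ l ∈ L.W ∪ L.C, c.nm l

variable [IsLocalRing O] [CharP F 2] (hL : L.Ok S) {X : Type*} [AddCommGroup X]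
  [Module (Tg O) X] {l : ℕ} {v : X}
include hL

theorem one_le_a (hl : l ∈ L.W ∪ L.C) : 1 ≤ c.a l := by
  obtain ⟨m, hm, e⟩ := c.ha l hl
  have ho := (hL.pr l hl).1.odd_of_ne_two (hL.pr l hl).2
  by_contra h
  rw [show c.a l = 0 by omega, pow_zero, one_mul] at e
  rw [e] at ho
  exact (Nat.not_even_iff_odd.2 ho) hm.add_one

theorem dl_pow (hl : l ∈ L.W ∪ L.C) (h : Gp0 L.r (Ideal.torsionOf (Tg O) X v)) :
    c.dl l ^ 2 ^ c.a l • v = v := by
  obtain ⟨m, hm, e⟩ := c.ha l hl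
  exact dlM hL hl hm e (c.hx l) h

theorem rel (hl : l ∈ L.W) (h : Gp0 L.r (Ideal.torsionOf (Tg O) X v)) :
    WRel L l (c.a l) (c.b l) (c.x l) (cW (c.e l) (c.u l) (c.v l)) (zW L l (c.e l) (c.u l))
      MvPolynomial.C tt As.dd (fun p q => p • v = q • v) (c.y l 0) (c.y l 1) (c.dl l) := by
  obtain ⟨m, hm, e⟩ := c.ha l (mem_union_left _ hl)
  obtain ⟨w, hw, e'⟩ := c.hb l (mem_union_left _ hl)
  exact (c.wc l hl).wlocM hL hl hm hw e e' (c.hx l) h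

omit hL [IsLocalRing O] in
theorem geo {y : Tg O} {n : ℕ} (h : y ^ n • v = v) : ((y - 1) * ∑ i ∈ range n, y ^ i) • v = 0 := by
  rw [mul_geom_sum, sub_smul, h, one_smul, sub_self]

theorem ann (hl : l ∈ L.W ∪ L.C) (h : Gp0 L.r (Ideal.torsionOf (Tg O) X v)) :
    ∀ p ∈ c.J l, (p * c.nm l) • v = 0 := by
  intro p hp
  by_cases h1 : L.Sp l
  · obtain ⟨a1, a2, -⟩ := (c.rel hL h1.1 h).split h1.2.1 h1.2.2
    rw [one_smul] at a1 a2
    rw [J, if_pos h1] at hp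
    rw [nm, if_pos h1]
    rcases hp with rfl | rfl
    · rw [← mul_assoc, mul_comm, mul_smul, geo a1, smul_zero]
    · rw [mul_left_comm, mul_smul, geo a2, smul_zero]
  by_cases h2 : L.In l
  · obtain ⟨a1, -⟩ := (c.rel hL h2.1 h).inert h2.2.1 h2.2.2
    rw [one_smul] at a1
    rw [J, if_neg h1, if_pos h2] at hp
    rw [nm, if_neg h1, if_pos h2, hp, geo a1]
  · rw [J, if_neg h1, if_neg h2] at hp
    rw [nm, if_neg h1, if_neg h2, hp, geo (c.dl_pow hL hl h)]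

/-- the equations kill the norm element -/
theorem annJ {Z : Submodule (Tg O) X} (hZ : ∀ v ∈ Z, Gp0 L.r (Ideal.torsionOf (Tg O) X v)) :
    ∀ p ∈ c.JJ, ∀ v ∈ Z, (p * c.NN) • v = 0 :=
  ann_prod fun l hl p hp v hv => c.ann hL hl (hZ v hv) p hp

/-- after the cut the normalised determinants act trivially -/
theorem fix (h : Gp0 L.r (Ideal.torsionOf (Tg O) X v)) (h0 : ∀ p ∈ c.JJ, p • v = 0) :
    (∀ l ∈ L.W, L.τ l ∈ L.Hl l → ∀ i, c.y l i • v = v) ∧ ∀ l ∈ L.W ∪ L.C, c.dl l • v = v := by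
  have k : ∀ l ∈ L.W ∪ L.C, ∀ p, p - 1 ∈ c.J l → p • v = v := fun l hl p hp => by
    have := h0 _ (Set.mem_iUnion₂.2 ⟨l, hl, hp⟩)
    rwa [sub_smul, one_smul, sub_eq_zero] at this
  have pw : ∀ {p : Tg O}, p • v = v → ∀ n : ℕ, p ^ n • v = v := fun hp n => by
    induction n with
    | zero => simp
    | succ n ih => rw [pow_succ, mul_smul, hp, ih]
  have s : ∀ l, L.Sp l → c.y l 0 • v = v ∧ c.y l 1 • v = v := fun l h1 =>
    ⟨k l (mem_union_left _ h1.1) _ (by rw [J, if_pos h1]; exact Or.inl rfl),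
      k l (mem_union_left _ h1.1) _ (by rw [J, if_pos h1]; exact Or.inr rfl)⟩
  have i : ∀ l, L.In l → c.y l 0 • v = v := fun l h2 =>
    k l (mem_union_left _ h2.1) _ (by
      rw [J, if_neg (fun h1 : L.Sp l => h2.2.2 h1.2.2), if_pos h2]; rfl)
  refine ⟨fun l hl hτ j => ?_, fun l hl => ?_⟩
  · by_cases hφ : L.φ l ∈ L.Hl l
    · fin_cases j
      exacts [(s l ⟨hl, hτ, hφ⟩).1, (s l ⟨hl, hτ, hφ⟩).2]
    · fin_cases j
      exacts [i l ⟨hl, hτ, hφ⟩,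
        ((c.rel hL hl h).inert hτ hφ).2.1.trans (pw (i l ⟨hl, hτ, hφ⟩) l)]
  · by_cases h1 : L.Sp l
    · rw [((c.rel hL h1.1 h).split h1.2.1 h1.2.2).2.2, mul_smul, (s l h1).2, (s l h1).1]
    by_cases h2 : L.In l
    · exact ((c.rel hL h2.1 h).inert h2.2.1 h2.2.2).2.2.trans (pw (i l h2) _)
    · exact k l hl _ (by rw [J, if_neg h1, if_neg h2]; rfl)

theorem dd_fix (hd : c.dl l • v = v) : (As.dd (L.τ l) : Tg O) • v = cc (L.r (L.τ l)).det • v := by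
  conv_rhs => rw [← hd, ← mul_smul, dl, mul_left_comm, cc, cc, ← map_mul, mul_comm _ (c.x l),
    c.hx, map_one, mul_one]

/-- **after the cut the class conditions hold** -/
theorem cls (h : Gp0 L.r (Ideal.torsionOf (Tg O) X v)) (h0 : ∀ p ∈ c.JJ, p • v = 0)
    (h2 : ∀ g ∈ W.dec (L.P 2), (As.dd g : Tg O) • v = cc (L.r g).det • v)
    (hc : (As.dd L.c : Tg O) • v = -v) :
    (∀ g ∈ L.TT, tt g - cc (L.r g).trace ∈ Ideal.torsionOf (Tg O) X v) ∧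
      ∀ g ∈ L.DD, As.dd g - cc (L.r g).det ∈ Ideal.torsionOf (Tg O) X v := by
  obtain ⟨f1, f2⟩ := c.fix hL h h0
  have q : ∀ {p q : Tg O}, p • v = q • v → p - q ∈ Ideal.torsionOf (Tg O) X v := fun e => by
    rw [Ideal.mem_torsionOf_iff, sub_smul, e, sub_self]
  exact h.cls c.wc hL (fun l hl hτ i => q ((f1 l hl hτ i).trans (one_smul _ _).symm))
    (fun g hg => q (h2 g hg))
    (by rw [Ideal.mem_torsionOf_iff, add_smul, hc, one_smul, neg_add_cancel])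
    (fun l hl => q (c.dd_fix hL (f2 l (mem_union_right _ hl))))
    (fun l hl _ => q (c.dd_fix hL (f2 l (mem_union_left _ hl))))

omit hL [IsLocalRing O] [CharP F 2] in
/-- conversely, a vector in the class is killed by the equations -/
theorem of_cls (ht : ∀ g ∈ L.TT, (tt g : Tg O) • v = cc (L.r g).trace • v)
    (hd : ∀ g ∈ L.DD, (As.dd g : Tg O) • v = cc (L.r g).det • v) : ∀ p ∈ c.JJ, p • v = 0 := by
  have d : ∀ l ∈ L.W ∪ L.C, (c.dl l - 1) • v = 0 := fun l hl => by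
    rw [sub_smul, dl, mul_comm, mul_smul, hd _ (Or.inr (Or.inr (Or.inl ⟨l, hl, rfl⟩))),
      ← mul_smul, cc, cc, ← map_mul, c.hx, map_one, sub_self]
  have y : ∀ l ∈ L.W, L.τ l ∈ L.Hl l → ∀ i, (c.y l i - 1) • v = 0 := fun l hl hτ i => by
    have a1 := ht _ ⟨l, hl, Or.inl rfl⟩
    have a2 := ht _ ⟨l, hl, Or.inr (Or.inl rfl)⟩
    have k : ∀ p q : O, (MvPolynomial.C p * tt (L.τ l * L.g0 l) + MvPolynomial.C q * tt (L.τ l) :
        Tg O) • v = cc (p * (L.r (L.τ l * L.g0 l)).trace + q * (L.r (L.τ l)).trace) • v :=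
      fun p q => by
        rw [add_smul, mul_smul, mul_smul, a1, a2]
        simp only [cc, map_add, map_mul, add_smul, mul_smul]
    obtain ⟨e0, e1⟩ :=
      yW_c (L := L) (l := l) (e := c.e l) (u := c.u l) (v := c.v l) MvPolynomial.C tt
    obtain ⟨f0, f1⟩ := yW_c (L := L) (l := l) (e := c.e l) (u := c.u l) (v := c.v l)
      (RingHom.id O) fun g => (L.r g).trace
    have c0 := (c.wc l hl).chi hτ i
    simp only [RingHom.id_apply] at f0 f1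
    rw [sub_smul, sub_eq_zero]
    fin_cases i
    · show yW L l (c.e l) (c.u l) (c.v l) MvPolynomial.C tt 0 • v = _
      rw [e0, k, f0.symm.trans c0, cc, map_one]
    · show yW L l (c.e l) (c.u l) (c.v l) MvPolynomial.C tt 1 • v = _
      rw [e1, k, f1.symm.trans c0, cc, map_one]
  intro p hp
  obtain ⟨l, hl, hp⟩ := Set.mem_iUnion₂.1 hp
  rw [J] at hp
  split_ifs at hp with h1 h2
  · rcases hp with rfl | rfl
    exacts [y l h1.1 h1.2.1 0, y l h1.1 h1.2.1 1]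
  · exact hp ▸ y l h2.1 h2.2.1 0
  · exact hp ▸ d l hl

omit hL

/-- gradings by the components at the split primes, on a module `Y` killed by two -/
structure Gr (Y : Submodule (Tg O) X) {Δ : ℕ → Type*} [∀ l, CommGroup (Δ l)]
    (pj : ∀ l, Δ l → X →+ X) (χ : ∀ l, GQ →* Δ l) : Prop where
  two : ∀ v ∈ Y, (2 : Tg O) • v = 0
  opn : ∀ l, L.Sp l → IsOpen {g | χ l g = 1}
  ord : ∀ l, L.Sp l → orderOf (χ l (L.τ l)) = 2 ^ c.a l
  grp : ∀ l, L.Sp l → ∀ g, ∃ n : ℕ, χ l g ^ 2 ^ n = 1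
  oth : ∀ l, L.Sp l → ∀ l' ∈ L.W ∪ L.C, l ≠ l' → χ l (L.τ l') = 1
  dT : ∀ l, L.Sp l → ∀ g, Deg Y (pj l) (tt g) (χ l g)
  dD : ∀ l, L.Sp l → ∀ g, Deg Y (pj l) (As.dd g) (χ l g * χ l g)
  dC : ∀ l, L.Sp l → ∀ o, Deg Y (pj l) (cc o) 1
  idm : ∀ l, L.Sp l → ∀ v ∈ Y, pj l 1 (pj l 1 v) = pj l 1 v
  ort : ∀ l, L.Sp l → ∀ δ, δ ≠ 1 → ∀ v ∈ Y, pj l δ (pj l 1 v) = 0
  sum : ∀ l, L.Sp l → ∀ v ∈ Y, ∑ i ∈ range (2 ^ c.a l), pj l (χ l (L.τ l) ^ i) v = v

variable {c} {Y : Submodule (Tg O) X} {Δ : ℕ → Type*} [∀ l, CommGroup (Δ l)]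
  {pj : ∀ l, Δ l → X →+ X} {χ : ∀ l, GQ →* Δ l}

theorem Gr.g0 (h : c.Gr Y pj χ) (h1 : L.Sp l) {l' : ℕ} (hl : l' ∈ L.W) : χ l (L.g0 l') = 1 := by
  obtain ⟨m, hm, e⟩ := (c.wc l' hl).odd.pow _ (h.opn l h1)
  obtain ⟨n, e'⟩ := h.grp l h1 (L.g0 l')
  have := Nat.dvd_gcd (orderOf_dvd_of_pow_eq_one e) (orderOf_dvd_of_pow_eq_one e')
  rwa [((Nat.coprime_two_right.2 hm).pow_right n).gcd_eq_one, Nat.dvd_one, orderOf_eq_one_iff]
    at this

theorem Gr.dy (h : c.Gr Y pj χ) (h1 : L.Sp l) {l' : ℕ} (hl : l' ∈ L.W) (i : Fin 2) :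
    Deg Y (pj l) (c.y l' i) (χ l (L.τ l')) := by
  have a := h.dT l h1 (L.τ l' * L.g0 l')
  rw [map_mul, h.g0 h1 hl, mul_one] at a
  have k : ∀ p q : O, Deg Y (pj l) (cc p * tt (L.τ l' * L.g0 l') + cc q * tt (L.τ l'))
      (χ l (L.τ l')) := fun p q => by
    simpa using ((h.dC l h1 p).mul a).add ((h.dC l h1 q).mul (h.dT l h1 _))
  obtain ⟨e0, e1⟩ :=
    yW_c (L := L) (l := l') (e := c.e l') (u := c.u l') (v := c.v l') MvPolynomial.C tt
  fin_cases i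
  · show Deg Y (pj l) (yW L l' (c.e l') (c.u l') (c.v l') MvPolynomial.C tt 0) _
    rw [e0]; exact k _ _
  · show Deg Y (pj l) (yW L l' (c.e l') (c.u l') (c.v l') MvPolynomial.C tt 1) _
    rw [e1]; exact k _ _

include hL

theorem Gr.dat (h : c.Gr Y pj χ) (hY : ∀ v ∈ Y, Gp0 L.r (Ideal.torsionOf (Tg O) X v))
    {K : Submodule (Tg O) X} (hK : K ≤ Y) (hs : ∀ l, L.Sp l → ∀ v ∈ K, pj l 1 v ∈ K) :
    Step.Dat K (L.W ∪ L.C) c.w (fun l => 2 ^ c.a l) c.J c.nm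
      fun l v => if L.Sp l then pj l 1 v else v := by
  refine ⟨fun _ _ => Nat.one_le_two_pow, fun l hl v hv => ?_,
    fun l hl p hp v hv => c.ann hL hl (hY v (hK hv)) p hp, fun l hl v hv => ?_,
    fun l hl l' hl' e p hp v hv h0 => ?_, fun l hl K' hK' hs' H => ?_⟩
  · rw [w, eq_of_two (h.two v (hK hv)) (sub_one_pow _ _), sub_smul,
      c.dl_pow hL hl (hY v (hK hv)), one_smul, sub_self]
  · split_ifs with h1
    exacts [hs l h1 v hv, hv]
  · split_ifs with h1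
    swap
    · exact h0
    have o := h.oth l h1 l' hl' e
    have d : Deg Y (pj l) (c.dl l' - 1) 1 := by
      refine Deg.sub ?_ Deg.one
      simpa [o, dl] using (h.dD l h1 (L.τ l')).mul (h.dC l h1 (c.x l'))
    have y : l' ∈ L.W → ∀ i, Deg Y (pj l) (c.y l' i - 1) 1 := fun k i =>
      Deg.sub (o ▸ h.dy h1 k i) Deg.one
    refine Deg.ker ?_ 1 (hK hv) h0
    rcases hp with rfl | hp
    · exact d
    rw [J] at hp
    split_ifs at hp with h2 h3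
    · rcases hp with rfl | rfl
      exacts [y h2.1 0, y h2.1 1]
    · exact hp ▸ y h3.1 0
    · exact hp ▸ d
  · have a := c.one_le_a hL hl
    have k : K' ≤ Y := hK'.trans hK
    by_cases h1 : L.Sp l
    · rw [J, nm, if_pos h1, if_pos h1]
      refine rep_gr h.two (k := 1) a (h.ord l h1) (h.idm l h1) (h.ort l h1) (h.sum l h1)
        (h.dy h1 h1.1 0) (h.dy h1 h1.1 1) (fun v hv => ?_) (fun v hv => ?_)
        (fun v hv b1 b2 => ?_) (fun _ _ => rfl) K' k (fun v hv => by simpa [h1] using hs' v hv) H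
      · exact ((c.rel hL h1.1 (hY v hv)).split h1.2.1 h1.2.2).2.1.trans (one_smul _ _)
      · rw [w, sub_smul, sub_smul, pow_one, ((c.rel hL h1.1 (hY v hv)).split h1.2.1 h1.2.2).2.2]
      · rw [sub_smul, one_smul, sub_eq_zero] at b1 b2
        exact ⟨b1, b2⟩
    by_cases h2 : L.In l
    · rw [J, nm, if_neg h1, if_neg h1, if_pos h2, if_pos h2]
      obtain ⟨m, -, e⟩ := c.hb l hl
      refine rep_inert (fun v hv => h.two v (k hv)) (k := m) a (fun v hv => ?_) (fun _ _ => rfl)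
        (fun _ _ => rfl) H
      rw [w, sub_smul, sub_smul, ← e, ((c.rel hL h2.1 (hY v (k hv))).inert h2.2.1 h2.2.2).2.2]
    · rw [J, nm, if_neg h1, if_neg h1, if_neg h2, if_neg h2]
      exact rep_inert (fun v hv => h.two v (k hv)) (θ := c.dl l) (b := 0) (k := 1) a
        (fun v hv => by simp [w]) (fun _ _ => rfl) (fun _ _ => rfl) H

/-- **the cut**: freeness over the group of scalars gives freeness over the types -/
theorem Gr.cs (h : c.Gr Y pj χ) (hY : ∀ v ∈ Y, Gp0 L.r (Ideal.torsionOf (Tg O) X v))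
    {K : Submodule (Tg O) X} (hK : K ≤ Y) (hs : ∀ l, L.Sp l → ∀ v ∈ K, pj l 1 v ∈ K)
    (H : Cs K (c.w '' (L.W ∪ L.C : Finset ℕ)) (∏ l ∈ L.W ∪ L.C, c.w l ^ (2 ^ c.a l - 1))) :
    Cs K c.JJ c.NN :=
  multi _ K (h.dat hL hY hK hs) H

/-- **the cut of a divisible module is divisible and equal to `NN • Z`** -/
theorem Gr.cut {Z : Submodule (Tg O) X} {ϖ : Tg O} (h : c.Gr (kl Z {ϖ}) pj χ)
    (hZ : ∀ v ∈ Z, Gp0 L.r (Ideal.torsionOf (Tg O) X v)) (hd : Dv ϖ Z)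
    (ht : ∀ v ∈ Z, ∃ k : ℕ, ϖ ^ k • v = 0)
    (hs : ∀ l, L.Sp l → ∀ v ∈ kl Z {ϖ}, pj l 1 v ∈ kl Z {ϖ})
    (H : Cs (kl Z {ϖ}) (c.w '' (L.W ∪ L.C : Finset ℕ))
      (∏ l ∈ L.W ∪ L.C, c.w l ^ (2 ^ c.a l - 1))) :
    Cs Z c.JJ c.NN ∧ Dv ϖ (kl Z c.JJ) :=
  have k := h.cs hL (fun v hv => hZ v hv.1) le_rfl hs H
  ⟨cut_eq hd ht (c.annJ hL hZ) k, cut_dv hd ht (c.annJ hL hZ) k⟩

end Cw

end Vale.Agent.P022E.Loc
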