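import Vale.Agent.P022E.W.Ring
import Vale.Agent.P022E.As.Defs2

/-!
# P022E, block W: the relations of the type elements modulo good ideals of the ring of symbols
-/

set_option linter.all false

noncomputable section

namespace Vale.Agent.P022E.As

open NumberField IsLocalRing
open Vale.Agent.P022 Vale.Agent.P022.H443 Vale.Agent.P022D Vale.Agent.P022D.R
open Vale.Agent.P027M.S (Inert mx)
open Vale.Agent.P022D.Sel (M2)
open Vale.Agent.P022E.Loc (Pl Wc yW Tst rbm)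

variable {O F : Type} [CommRing O] [Field F]

/-- the ideal `a` is the kernel of a pseudo character with values in a finite ring, congruent to
`r` (no class condition) -/
structure Gp0 (r : GQ →* M2 O) (a : Ideal (Tg O)) : Prop where
  fin : Finite (Tg O ⧸ a)
  nilt : ∀ g, ∃ k : ℕ, (tt g - cc (r g).trace) ^ k ∈ a
  nild : ∀ g, ∃ k : ℕ, (dd g - cc (r g).det) ^ k ∈ a
  nily : ∀ i, ∃ k : ℕ, (yy i : Tg O) ^ k ∈ a
  t1 : tt 1 - 2 ∈ a
  tc : ∀ g h, tt (g * h) - tt (h * g) ∈ a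
  tm : ∀ g h, tt g * tt h - (tt (g * h) + dd h * tt (g * h⁻¹)) ∈ a
  d1 : dd 1 - 1 ∈ a
  dm : ∀ g h, dd (g * h) - dd g * dd h ∈ a
  opn : ∃ U : Subgroup GQ, IsOpen (U : Set GQ) ∧ ∀ u ∈ U, ∀ g, tt (g * u) - tt g ∈ a

variable {ϖ : O} {L : Pl O} {S : Dat O F} {a : Ideal (Tg O)}

theorem Gw.gp0 {T Q : Finset ℕ} {r : ℕ} (h : Gw ϖ L T Q r a) : Gp0 L.r a :=
  ⟨h.fin, h.nilt, h.nild, h.nily, h.t1, h.tc, h.tm, h.d1, h.dm, h.opn⟩

theorem Gp0.rad {r : GQ →* M2 O} (h : Gp0 r a) (b : Tg O) : b - cc (ev0 r b) ∈ a.radical := by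
  induction b using MvPolynomial.induction_on with
  | C c => simp [cc, ev0]
  | add p q hp hq =>
    have := a.radical.add_mem hp hq
    simp only [cc, map_add] at this ⊢
    convert this using 1; ring
  | mul_X p s hp =>
    have hs : MvPolynomial.X s - cc (ev0 r (MvPolynomial.X s)) ∈ a.radical := by
      rw [Ideal.mem_radical_iff]
      rcases s with g | g | i
      · simpa [ev0, tt] using h.nilt g
      · simpa [ev0, dd] using h.nild g
      · simpa [ev0, yy, cc] using h.nily i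
    have := a.radical.add_mem (a.radical.mul_mem_right (MvPolynomial.X s) hp)
      (a.radical.mul_mem_left (cc (ev0 r p)) hs)
    simp only [cc, map_mul] at this ⊢
    convert this using 1; ring

/-- the test ring of a good ideal -/
theorem Gp0.tst [IsLocalRing O] (hL : L.Ok S) (h : Gp0 L.r a) (ha : a ≠ ⊤) :
    ∃ (π : Tg O ⧸ a →+* F) (ρ : GQ →* M2 (Tg O ⧸ a)),
      Tst S ((Ideal.Quotient.mk a).comp MvPolynomial.C) π ρ ∧
      (∀ b, π (Ideal.Quotient.mk a b) = S.red (ev0 L.r b)) ∧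
      (∀ g, (ρ g).trace = Ideal.Quotient.mk a (tt g)) ∧
      (∀ g, (ρ g).det = Ideal.Quotient.mk a (dd g)) ∧
      ∀ u, (∀ g, tt (g * u) - tt g ∈ a) → ρ u = 1 := by
  have un : ∀ b, S.red (ev0 L.r b) ≠ 0 → IsUnit (Ideal.Quotient.mk a b) := by
    intro b hb
    have h1 : IsUnit (ev0 L.r b) := by
      by_contra hn
      exact hb ((hL.ker _).2 hn)
    obtain ⟨k, hk⟩ := h.rad b
    have h2 : IsNilpotent (Ideal.Quotient.mk a (b - cc (ev0 L.r b))) :=
      ⟨k, by rw [← map_pow]; exact Ideal.Quotient.eq_zero_iff_mem.2 hk⟩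
    have h3 := h2.isUnit_add_right_of_commute
      ((h1.map (MvPolynomial.C (σ := GQ ⊕ GQ ⊕ ℕ))).map (Ideal.Quotient.mk a)) (Commute.all _ _)
    rwa [← map_add, cc, sub_add_cancel] at h3
  let π : Tg O ⧸ a →+* F := Ideal.Quotient.lift a (S.red.comp (ev0 L.r)) fun b hb => by
    by_contra hn
    have := un b hn
    rw [Ideal.Quotient.eq_zero_iff_mem.2 hb, isUnit_zero_iff, Ideal.Quotient.zero_eq_one_iff] at this
    exact ha this
  have loc : ∀ x, π x ≠ 0 → IsUnit x := fun x => by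
    obtain ⟨x, rfl⟩ := Ideal.Quotient.mk_surjective x
    exact un x
  have alg : ∀ c, π (((Ideal.Quotient.mk a).comp MvPolynomial.C) c) = S.red c := fun c => by
    show S.red (ev0 L.r (MvPolynomial.C c)) = _
    simp [ev0]
  have := h.fin
  have hA := W.LR.of_finite π loc
  obtain ⟨n, hn⟩ := hA.nil
  have := Gma.henselian_of_pow hn
  let d' : GQ →* Tg O ⧸ a := ⟨⟨fun g => Ideal.Quotient.mk a (dd g), Ideal.Quotient.eq.2 h.d1⟩,
    fun g k => Ideal.Quotient.eq.2 (h.dm g k)⟩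
  have h10 : rbm S S.g1 1 0 ≠ 0 := hL.h10
  obtain ⟨b, hb⟩ := S.surj (rbm S S.g1 0 1)
  have e0 : rbm S S.g0 = !![rbm S S.g0 0 0, 0; 0, rbm S S.g0 1 1] := by
    ext i j
    fin_cases i <;> fin_cases j
    exacts [rfl, S.d01, S.d10, rfl]
  obtain ⟨ρ, α, β, _, _, _, a1, a2, a3, -, -, -, -, -, -, -, -, a6⟩ := Gma.exists_lift π
    (fun x => by
      obtain ⟨c, rfl⟩ := S.surj x
      exact ⟨_, alg c⟩) loc (t := fun g => Ideal.Quotient.mk a (tt g)) (d := d'.toHomUnits)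
    ⟨(Ideal.Quotient.eq.2 h.t1).trans (map_ofNat _ 2), fun g k => Ideal.Quotient.eq.2 (h.tc g k),
      fun g k => Ideal.Quotient.eq.2 (h.tm g k)⟩ (rbm S)
    (fun g => by
      show S.red (ev0 L.r (tt g)) = _
      rw [show ev0 L.r (tt g) = (L.r g).trace by simp [ev0, tt]]
      exact (W.trc_map S.red (ρ := L.r) (ρ' := rbm S) hL.lift g).symm)
    (fun g => by
      show S.red (ev0 L.r (dd g)) = _
      rw [show ev0 L.r (dd g) = (L.r g).det by simp [ev0, dd]]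
      exact (W.dtm_map S.red (ρ := L.r) (ρ' := rbm S) hL.lift g).symm)
    S.g0 S.g1 e0 S.dne h10 _ ((alg b).trans hb) S.n01
  have a7 : ∀ u, (∀ g, tt (g * u) - tt g ∈ a) → ρ u = 1 := fun u k =>
    a6 u fun g => Ideal.Quotient.eq.2 (k g)
  refine ⟨π, ρ, ⟨hA, alg, a3, ?_⟩, fun _ => rfl, a1, a2, a7⟩
  obtain ⟨U, hU, hu⟩ := h.opn
  have := galQb
  have e : (W.kr ρ : Set GQ) = {g : GQ | ρ g = 1} := Set.ext (W.mem_kr ρ)
  rw [← e]
  exact Subgroup.isOpen_mono (fun u k => (W.mem_kr _ _).2 (a7 u (hu u k))) hU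

/-- the type elements in the ring of symbols -/
def yT (L : Pl O) (l : ℕ) (e : Fin 2 → O) (u : O) (v : Fin 2 → O) (i : Fin 2) : Tg O :=
  yW L l e u v MvPolynomial.C tt i

variable {l : ℕ} {e v : Fin 2 → O} {u : O}

/-- **the relations modulo a good ideal** -/
theorem Gp0.rel [IsLocalRing O] [CharP F 2] (hc : Wc S L l e u v) (hL : L.Ok S) (hl : l ∈ L.W)
    (h : Gp0 L.r a) :
    (tt (L.g0 l) - cc (L.r (L.g0 l)).trace ∈ a ∧ dd (L.g0 l) - cc (L.r (L.g0 l)).det ∈ a) ∧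
    (L.τ l ∉ L.Hl l → tt (L.τ l) - cc (L.r (L.τ l)).trace ∈ a ∧
      tt (L.τ l * L.g0 l) - cc (L.r (L.τ l * L.g0 l)).trace ∈ a) ∧
    (L.τ l ∈ L.Hl l → (∀ i, ∃ k : ℕ, (yT L l e u v i - 1) ^ k ∈ a) ∧
      dd (L.τ l) - yT L l e u v 0 * yT L l e u v 1 * cc (L.r (L.τ l)).det ∈ a ∧
      (L.φ l ∈ L.Hl l → ∀ n m, Odd m → l = 2 ^ n * m + 1 → ∀ i, yT L l e u v i ^ 2 ^ n - 1 ∈ a) ∧
      (L.φ l ∉ L.Hl l → yT L l e u v 1 - yT L l e u v 0 ^ l ∈ a ∧
        ∀ c m, Odd m → l ^ 2 = 2 ^ c * m + 1 → yT L l e u v 0 ^ 2 ^ c - 1 ∈ a)) := by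
  by_cases ha : a = ⊤
  · subst ha
    simp
  obtain ⟨π, ρ, hT, -, ht, hd, -⟩ := h.tst hL ha
  obtain ⟨⟨a1, a2⟩, a3, a4⟩ := hc.ring hL hl hT
  have hy : ∀ i, Ideal.Quotient.mk a (yT L l e u v i) =
      yW L l e u v ((Ideal.Quotient.mk a).comp MvPolynomial.C) (fun g => (ρ g).trace) i :=
    Loc.yW_map (Ideal.Quotient.mk a) (fun _ => rfl) (fun g => (ht g).symm) L l e u v
  simp only [← Ideal.Quotient.eq, map_mul (Ideal.Quotient.mk a), map_pow (Ideal.Quotient.mk a),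
    map_one (Ideal.Quotient.mk a), ← ht, ← hd]
  refine ⟨⟨a1, a2⟩, a3, fun hτ => ?_⟩
  obtain ⟨b1, b2, b3, b4⟩ := a4 hτ _ (funext hy)
  refine ⟨fun i => ?_, b2, b3, b4⟩
  obtain ⟨k, hk⟩ := hT.lr.isNilpotent (a := Ideal.Quotient.mk a (yT L l e u v i - 1)) (by
    rw [map_sub, map_sub, b1, map_one, map_one, sub_self])
  exact ⟨k, Ideal.Quotient.eq_zero_iff_mem.1 (by rw [map_pow, hk])⟩

/-- **after the cut the class conditions hold** -/
theorem Gp0.cls [IsLocalRing O] [CharP F 2] {e v : ℕ → Fin 2 → O} {u : ℕ → O}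
    (hc : ∀ l ∈ L.W, Wc S L l (e l) (u l) (v l)) (hL : L.Ok S) (h : Gp0 L.r a)
    (hy : ∀ l ∈ L.W, L.τ l ∈ L.Hl l → ∀ i, yT L l (e l) (u l) (v l) i - 1 ∈ a)
    (h2 : ∀ g ∈ W.dec (L.P 2), dd g - cc (L.r g).det ∈ a) (h0 : dd L.c + 1 ∈ a)
    (hC : ∀ l ∈ L.C, dd (L.τ l) - cc (L.r (L.τ l)).det ∈ a)
    (hW : ∀ l ∈ L.W, L.τ l ∉ L.Hl l → dd (L.τ l) - cc (L.r (L.τ l)).det ∈ a) :
    (∀ g ∈ L.TT, tt g - cc (L.r g).trace ∈ a) ∧ ∀ g ∈ L.DD, dd g - cc (L.r g).det ∈ a := by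
  constructor
  · rintro g ⟨l, hl, hg⟩
    obtain ⟨⟨a1, -⟩, a3, -⟩ := h.rel (hc l hl) hL hl
    have key : tt (L.τ l) - cc (L.r (L.τ l)).trace ∈ a ∧
        tt (L.τ l * L.g0 l) - cc (L.r (L.τ l * L.g0 l)).trace ∈ a := by
      by_cases hτ : L.τ l ∈ L.Hl l
      · have := (hc l hl).cut hτ (X := Tg O ⧸ a) MvPolynomial.C tt (w := Ideal.Quotient.mk a 1)
          fun i => Ideal.Quotient.eq.2 (by simpa [yT] using hy l hl hτ i)
        exact ⟨by simpa [cc] using Ideal.Quotient.eq.1 this.1,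
          by simpa [cc] using Ideal.Quotient.eq.1 this.2⟩
      · exact a3 hτ
    rcases hg with rfl | rfl | rfl
    exacts [key.1, key.2, a1]
  · rintro g (hg | rfl | ⟨l, hl, rfl⟩ | ⟨l, hl, rfl⟩)
    · exact h2 g hg
    · rw [hL.odd]
      simpa [cc] using h0
    · rcases Finset.mem_union.1 hl with hl | hl
      · by_cases hτ : L.τ l ∈ L.Hl l
        · have b := ((h.rel (hc l hl) hL hl).2.2 hτ).2.1
          have := a.add_mem b (a.mul_mem_right (cc (L.r (L.τ l)).det) (a.add_mem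
            (a.mul_mem_right (yT L l (e l) (u l) (v l) 1) (hy l hl hτ 0)) (hy l hl hτ 1)))
          convert this using 1; ring
        · exact hW l hl hτ
      · exact hC l hl
    · exact (h.rel (hc l hl) hL hl).1.2

end Vale.Agent.P022E.As
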